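import Vale.Agent.Lib.P074.Defs

namespace Vale.Agent.Lib.P074

open MeasureTheory ProbabilityTheory

/-- The conditional kernel of the graph measure of `T` is concentrated on the fibres of `T`. -/
theorem condKernel_graph {d : ℕ} (ρ : Measure (E d)) [IsFiniteMeasure ρ] (T : E d → E d)
    (hT : Measurable T) :
    ∀ᵐ y ∂(ρ.map T), ∀ A : Set (E d), MeasurableSet A →
      (ρ.map (fun x => (T x, x))).condKernel y (T ⁻¹' A) = A.indicator 1 y := by
  have hm : Measurable (fun x : E d => (T x, x)) := hT.prodMk measurable_id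
  set ρT := ρ.map (fun x => (T x, x)) with hρT
  have hfst : ρT.fst = ρ.map T := by
    rw [Measure.fst, hρT, Measure.map_map measurable_fst hm]
    rfl
  have hdis : ρT.fst ⊗ₘ ρT.condKernel = ρT := ρT.disintegrate ρT.condKernel
  have hG : MeasurableSet {p : E d × E d | T p.2 = p.1} :=
    measurableSet_eq_fun (hT.comp measurable_snd) measurable_fst
  have h0 : ∀ᵐ p ∂ρT, T p.2 = p.1 := by
    rw [hρT, ae_map_iff hm.aemeasurable hG]
    exact Filter.Eventually.of_forall (fun x => rfl)
  rw [← hdis] at h0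
  have h1 := Measure.ae_ae_of_ae_compProd h0
  rw [hfst] at h1
  filter_upwards [h1] with y hy A hA
  by_cases hyA : y ∈ A
  · rw [Set.indicator_of_mem hyA, Pi.one_apply]
    rw [← prob_compl_eq_zero_iff (hT hA)]
    refine measure_mono_null ?_ hy
    intro x hx hxy
    apply hx
    change T x ∈ A
    have : T x = y := hxy
    rw [this]
    exact hyA
  · rw [Set.indicator_of_notMem hyA]
    refine measure_mono_null ?_ hy
    intro x hx hxy
    apply hyA
    have : T x = y := hxy
    rw [← this]
    exact hx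

theorem exists_lift {d : ℕ} (ρ : Measure (E d)) [IsProbabilityMeasure ρ] (T S : E d → E d)
    (hT : Measurable T) (hS : Measurable S) (π : Measure (E d × E d))
    (h1 : π.map Prod.fst = ρ.map T) (h2 : π.map Prod.snd = ρ.map S) :
    ∃ Γ : Measure (E d × E d), Γ.map Prod.fst = ρ ∧ Γ.map Prod.snd = ρ ∧
      Γ.map (fun q : E d × E d => (T q.1, S q.2)) = π := by
  have hmT : Measurable (fun x : E d => (T x, x)) := hT.prodMk measurable_id
  have hmS : Measurable (fun x : E d => (S x, x)) := hS.prodMk measurable_id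
  set ρT := ρ.map (fun x => (T x, x)) with hρT
  set ρS := ρ.map (fun x => (S x, x)) with hρS
  have hfstT : ρT.fst = ρ.map T := by
    rw [Measure.fst, hρT, Measure.map_map measurable_fst hmT]
    rfl
  have hfstS : ρS.fst = ρ.map S := by
    rw [Measure.fst, hρS, Measure.map_map measurable_fst hmS]
    rfl
  have hπ : IsProbabilityMeasure π := by
    constructor
    have e1 : π Set.univ = (π.map Prod.fst) Set.univ := by
      rw [Measure.map_apply measurable_fst MeasurableSet.univ, Set.preimage_univ]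
    rw [e1, h1, Measure.map_apply hT MeasurableSet.univ, Set.preimage_univ, measure_univ]
  set κT := ρT.condKernel with hκT
  set κS := ρS.condKernel with hκS
  set K : Kernel (E d × E d) (E d × E d) :=
    (κT.comap Prod.fst measurable_fst) ×ₖ (κS.comap Prod.snd measurable_snd) with hK
  have rect : ∀ A B : Set (E d), MeasurableSet A → MeasurableSet B →
      (π.bind K) (A ×ˢ B) = ∫⁻ p, κT p.1 A * κS p.2 B ∂π := by
    intro A B hA hB
    rw [Measure.bind_apply (hA.prod hB) K.measurable.aemeasurable]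
    refine lintegral_congr (fun p => ?_)
    rw [hK, Kernel.prod_apply_prod, Kernel.comap_apply, Kernel.comap_apply]
  refine ⟨π.bind K, ?_, ?_, ?_⟩
  · ext A hA
    rw [Measure.map_apply measurable_fst hA]
    have e1 : Prod.fst ⁻¹' A = A ×ˢ (Set.univ : Set (E d)) := by
      ext p; simp
    rw [e1, rect A Set.univ hA MeasurableSet.univ]
    simp only [measure_univ, mul_one]
    have e2 : ∫⁻ p, κT p.1 A ∂π = ∫⁻ y, κT y A ∂(π.map Prod.fst) :=
      (lintegral_map (Kernel.measurable_coe κT hA) measurable_fst).symm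
    rw [e2, h1, ← hfstT]
    have e3 : ∫⁻ y, κT y A ∂ρT.fst = (ρT.fst ⊗ₘ κT) (Set.univ ×ˢ A) := by
      rw [Measure.compProd_apply_prod MeasurableSet.univ hA, Measure.restrict_univ]
    rw [e3, hκT, ρT.disintegrate ρT.condKernel, hρT,
      Measure.map_apply hmT (MeasurableSet.univ.prod hA)]
    congr 1
    ext x; simp
  · ext A hA
    rw [Measure.map_apply measurable_snd hA]
    have e1 : Prod.snd ⁻¹' A = (Set.univ : Set (E d)) ×ˢ A := by
      ext p; simp
    rw [e1, rect Set.univ A MeasurableSet.univ hA]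
    simp only [measure_univ, one_mul]
    have e2 : ∫⁻ p, κS p.2 A ∂π = ∫⁻ y, κS y A ∂(π.map Prod.snd) :=
      (lintegral_map (Kernel.measurable_coe κS hA) measurable_snd).symm
    rw [e2, h2, ← hfstS]
    have e3 : ∫⁻ y, κS y A ∂ρS.fst = (ρS.fst ⊗ₘ κS) (Set.univ ×ˢ A) := by
      rw [Measure.compProd_apply_prod MeasurableSet.univ hA, Measure.restrict_univ]
    rw [e3, hκS, ρS.disintegrate ρS.condKernel, hρS,
      Measure.map_apply hmS (MeasurableSet.univ.prod hA)]
    congr 1
    ext x; simp
  · symm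
    have hF : Measurable (fun q : E d × E d => (T q.1, S q.2)) :=
      (hT.comp measurable_fst).prodMk (hS.comp measurable_snd)
    have kT : ∀ᵐ p ∂π, ∀ A : Set (E d), MeasurableSet A →
        κT p.1 (T ⁻¹' A) = A.indicator 1 p.1 := by
      have h3 := condKernel_graph ρ T hT
      rw [← h1] at h3
      exact ae_of_ae_map measurable_fst.aemeasurable h3
    have kS : ∀ᵐ p ∂π, ∀ A : Set (E d), MeasurableSet A →
        κS p.2 (S ⁻¹' A) = A.indicator 1 p.2 := by
      have h3 := condKernel_graph ρ S hS
      rw [← h2] at h3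
      exact ae_of_ae_map measurable_snd.aemeasurable h3
    refine Measure.ext_prod (fun {A B} hA hB => ?_)
    rw [Measure.map_apply hF (hA.prod hB)]
    have e1 : (fun q : E d × E d => (T q.1, S q.2)) ⁻¹' (A ×ˢ B) = (T ⁻¹' A) ×ˢ (S ⁻¹' B) := by
      ext p; simp
    rw [e1, rect _ _ (hT hA) (hS hB)]
    have e2 : ∫⁻ p, κT p.1 (T ⁻¹' A) * κS p.2 (S ⁻¹' B) ∂π =
        ∫⁻ p, (A ×ˢ B).indicator 1 p ∂π := by
      refine lintegral_congr_ae ?_
      filter_upwards [kT, kS] with p hp1 hp2
      rw [hp1 A hA, hp2 B hB]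
      by_cases ha : p.1 ∈ A <;> by_cases hb : p.2 ∈ B <;>
        simp [Set.indicator, ha, hb]
    rw [e2, lintegral_indicator_one (hA.prod hB)]

end Vale.Agent.Lib.P074
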